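import Vale.Agent.P141.MathlibUsed

open MeasureTheory Filter Topology
open scoped ENNReal SchwartzMap

namespace Vale.Agent.P141

/-- The truncated integral `T_{ε,R}(f₁,f₂,f₃)(x)`, over `ε < |t| < R`. -/
noncomputable def truncTHT (f₁ f₂ f₃ : ℝ → ℂ) (ε R x : ℝ) : ℂ :=
  ∫ t in {t : ℝ | ε < |t| ∧ |t| < R}, f₁ (x - t) * f₂ (x - 2 * t) * f₃ (x - 3 * t) / (t : ℂ)

/-- The trilinear Hilbert transform: the limit of the truncations as `ε → 0+` and `R → ∞`. -/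
noncomputable def THT (f₁ f₂ f₃ : ℝ → ℂ) (x : ℝ) : ℂ :=
  limUnder (𝓝[>] (0 : ℝ) ×ˢ atTop) fun q : ℝ × ℝ => truncTHT f₁ f₂ f₃ q.1 q.2 x

/-- Hoelder tuples: `1 < p₁, p₂, p₃ ≤ ∞`, `0 < r < ∞`, `1/r = 1/p₁ + 1/p₂ + 1/p₃`. -/
structure IsHolderTuple (p₁ p₂ p₃ r : ℝ≥0∞) : Prop where
  one_lt_p₁ : 1 < p₁
  one_lt_p₂ : 1 < p₂
  one_lt_p₃ : 1 < p₃
  r_pos : 0 < r
  r_lt_top : r < ∞
  holder : r⁻¹ = p₁⁻¹ + p₂⁻¹ + p₃⁻¹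

/-- `T` is bounded at the tuple `(p₁, p₂, p₃, r)`. -/
def BoundedAt (p₁ p₂ p₃ r : ℝ≥0∞) : Prop :=
  ∃ C : ℝ≥0∞, C < ∞ ∧ ∀ f₁ f₂ f₃ : 𝓢(ℝ, ℂ),
    eLpNorm (THT f₁ f₂ f₃) r volume ≤
      C * eLpNorm f₁ p₁ volume * eLpNorm f₂ p₂ volume * eLpNorm f₃ p₃ volume

end Vale.Agent.P141
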