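import Mathlib.Analysis.Distribution.SchwartzSpace.Basic
import Mathlib.Analysis.SpecialFunctions.Gaussian.GaussianIntegral
import Mathlib.Analysis.SpecialFunctions.Log.Base
import Mathlib.Data.Int.CardIntervalMod
import Mathlib.Data.Int.Star
import Mathlib.Data.Rat.Star
import Mathlib.MeasureTheory.Order.Group.Lattice
import Mathlib.NumberTheory.Bertrand
import Mathlib.Order.CompletePartialOrder
import Mathlib.Tactic
import Mathlib.Topology.UniformSpace.Uniformizable

/-! The part of Mathlib that the development of this folder uses. -/
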